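import Vale.Agent.P199.Cex.Final

/-!
P199: a negative answer to Kurosh's problem for division rings, in both formulations.

The construction is explained in `Vale/Agent/P199/Cex/NOTES.md`.
-/

namespace Vale.Agent.Results.P199.KuroshDisproof

/-- There is a division ring, algebraic over its centre and generated over it by a finite set,
of infinite dimension over it; it is also a finitely generated algebraic algebra of infinite
dimension over a central subfield. -/
theorem result :
    ∃ (D : Type) (_ : DivisionRing D) (S : Finset D),
      Algebra.IsAlgebraic (Subring.center D) D ∧
        Algebra.adjoin (Subring.center D) (S : Set D) = ⊤ ∧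
        ¬ FiniteDimensional (Subring.center D) D ∧
        ∃ (k : Type) (_ : Field k) (_ : Algebra k D),
          Algebra.IsAlgebraic k D ∧ Algebra.FiniteType k D ∧ ¬ FiniteDimensional k D :=
  Vale.Agent.P199.Cex.counterexample

end Vale.Agent.Results.P199.KuroshDisproof
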