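import Vale.Agent.P199.Chain
import Vale.Agent.P199.Nilpotent

/-!
Kurosh's problem for centres with pronilpotent absolute Galois group.
-/

namespace Vale.Agent.Results.P199.PronilpotentBoundedTensor

/-- A division ring algebraic over such a centre is finite dimensional or contains arbitrarily many
commuting noncommutative finite-dimensional subalgebras, so it is finite dimensional when no
finite-dimensional division algebra contains many such subalgebras. -/
theorem result (F : Type) [Field F] (D : Type) [DivisionRing D] [Algebra F D]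
    [Algebra.IsCentral F D] [Algebra.IsAlgebraic F D] :
    ((∀ (E : Type) [Field E] [Algebra F E] [FiniteDimensional F E] (L : Type) [Field L]
      [Algebra E L] [FiniteDimensional E L] [Algebra.IsSeparable E L],
      1 < Module.finrank E L → ∃ M : IntermediateField E L,
        (Module.finrank E M).Prime ∧ IsGalois E M) →
      (Module.Finite F D ∨ ∀ m : ℕ, ∃ Q : Fin m → Subalgebra F D,
        (∀ i, FiniteDimensional F (Q i) ∧ ∃ a ∈ Q i, ∃ b ∈ Q i, a * b ≠ b * a) ∧
        ∀ i j, i ≠ j → ∀ a ∈ Q i, ∀ b ∈ Q j, a * b = b * a) ∧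
      ((∃ m : ℕ, ∀ (A : Type) [DivisionRing A] [Algebra F A], Module.Finite F A →
        ¬ ∃ Q : Fin m → Subalgebra F A, (∀ i, ∃ a ∈ Q i, ∃ b ∈ Q i, a * b ≠ b * a) ∧
          ∀ i j, i ≠ j → ∀ a ∈ Q i, ∀ b ∈ Q j, a * b = b * a) → Module.Finite F D)) ∧
    ((∀ (L : Type) [Field L] [Algebra F L] [FiniteDimensional F L] [Algebra.IsSeparable F L],
      1 < Module.finrank F L → ∃ M : IntermediateField F L,
        (Module.finrank F M).Prime ∧ IsGalois F M) →
      (∀ (A : Type) [DivisionRing A] [Algebra F A], Module.Finite F A →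
        ∀ x y : A, x * y = y * x) → (⊥ : Subalgebra F D) = ⊤) := by
  refine ⟨fun hN => ?_, fun hN hF => eq_top_iff.2 fun x _ => Algebra.IsCentral.out
    (Subalgebra.mem_center_iff.2 fun y =>
      Vale.Agent.P199.commutative_of_cyclic_steps hF hN y x)⟩
  have key := fun h => Vale.Agent.P199.Chain.finite_or_family (D := D) hN h
  refine ⟨?_, ?_⟩
  · by_cases h : Module.Finite F D
    · exact Or.inl h
    · refine Or.inr fun m => ?_
      obtain ⟨_, Q, _, hQ, hc⟩ := key h m
      exact ⟨Q, fun i => (hQ i).2, fun i j hij a ha b hb => (hc i j hij a ha b hb).eq⟩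
  · rintro ⟨m, hm⟩
    by_contra h
    obtain ⟨A, Q, hA, hQ, hc⟩ := key h m
    letI : DivisionRing A := divisionRingOfFiniteDimensional F A
    refine hm A hA ⟨fun i => (Q i).comap A.val, fun i => ?_, fun i j hij a ha b hb => ?_⟩
    · obtain ⟨hle, _, a, ha, b, hb, hab⟩ := hQ i
      exact ⟨⟨a, hle ha⟩, ha, ⟨b, hle hb⟩, hb, fun e => hab (congrArg Subtype.val e)⟩
    · exact Subtype.ext (hc i j hij (a : D) ha (b : D) hb).eq

end Vale.Agent.Results.P199.PronilpotentBoundedTensor
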