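import Vale.Agent.P199.Splitting

/-!
Kurosh's problem over uncountable fields with a finite extension over which all finite-dimensional
division algebras are commutative.
-/

namespace Vale.Agent.Results.P199.UncountableSplitCentres

/-- If some finite extension of an uncountable field `k` has only commutative finite-dimensional
division algebras, then algebraic division `k`-algebras are finite over their centres and locally
finite, and finitely generated ones are finite-dimensional; if `k` itself has this property, they
are commutative. -/
theorem result (k : Type) [Field k] [Uncountable k] (k' : Type) [Field k'] [Algebra k k']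
    [FiniteDimensional k k']
    (hk : ∀ (A : Type) [DivisionRing A] [Algebra k' A], Module.Finite k' A → ∀ x y : A, x * y = y * x)
    (D : Type) [DivisionRing D] [Algebra k D] :
    (Algebra.IsAlgebraic k D → Module.Finite (Subring.center D) D ∧
      ∀ s : Finset D, Module.Finite k (Algebra.adjoin k (s : Set D))) ∧
    (Algebra.FiniteType k D → Module.Finite k D) ∧
    ((∀ (A : Type) [DivisionRing A] [Algebra k A], Module.Finite k A → ∀ x y : A, x * y = y * x) →
      Algebra.IsAlgebraic k D → ∀ x y : D, x * y = y * x) := by
  refine ⟨fun h => @Vale.Agent.P199.centreFinite_of_algebraic k _ _ k' _ _ _ hk D _ _ h, fun h => ?_,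
    fun hk0 h => @Vale.Agent.P199.commutative_of_algebraic k _ _ hk0 D _ _ h⟩
  haveI := h
  haveI := Vale.Agent.P199.isAlgebraic_of_finiteType (k := k) (D := D)
  obtain ⟨s, hs⟩ := h.out
  have h2 := (Vale.Agent.P199.centreFinite_of_algebraic (k := k) hk (D := D)).2 s
  rw [hs] at h2
  exact Module.Finite.equiv Subalgebra.topEquiv.toLinearEquiv

end Vale.Agent.Results.P199.UncountableSplitCentres
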